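import Vale.Agent.P141.H401.CutData

/-!
# P141, line (A), top: the energy of the second slot is `1`

All functionals of the cut families are homogeneous in `C`, and `C` is linear in the input `F2`,
so that every price may be proved for `ez = 1` only.

* `One D` : the bundle with the additional field `ez = 1`;
* `PartQ.of_one` : scaling of `F2` in statements with stops;
* `Hom T` : `T` is homogeneous in `C`; `hom_NI`, `hom_NZ`, `hom_NF`;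
* `CSt.of_one`, `HSt1.of_one`, `HSt2.of_one`, `HSt3.of_one` : prices from the case `ez = 1`;
* `ce1q_of_one` : the class statement, makers and prices with `ez = 1`.
-/

namespace Vale.Agent.P141.H163

open Finset Matrix
open Vale.Agent.P141.PL (Pt iv hs ix cx)
open Vale.Agent.P141.PL.H315 (Tri)
open Vale.Agent.P141.H48 (US ES BSl)
open Vale.Agent.P141.H352 (In p)
open Vale.Agent.P141.H677
open Vale.Agent.P141.H305 (ClsM kapM CE1q)
open Vale.Agent.P141.H401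

noncomputable section

open scoped Classical

set_option linter.unusedSectionVars false

/-! ### Scaling of the input -/

/-- the input divided by `√w` -/
def dv (w : ℝ) (F : ℕ → Pt → ℝ) (k : ℕ) (q : Pt) : ℝ := (√w)⁻¹ * F k q

theorem BSl_dv {n : ℕ} {e cP w : ℝ} {F : ℕ → Pt → ℝ} {Q : ℕ → Pt → Prop} (h : BSl n e cP F Q)
    (hw : 0 < w) (he : e ≤ w) : BSl n 1 cP (dv w F) Q := by
  have h0 : 0 < √w := Real.sqrt_pos.2 hw
  have h1 : (√w)⁻¹ ^ 2 = w⁻¹ := by rw [inv_pow, Real.sq_sqrt hw.le]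
  have key : ∀ (k : ℕ) (S : Finset ℤ) (f : ℤ → Pt), ∑ z ∈ S, F (k + 1) (f z) ^ 2 ≤ e * 2 ^ k →
      ∑ z ∈ S, dv w F (k + 1) (f z) ^ 2 ≤ 1 * 2 ^ k := by
    intro k S f hf
    have h2 : ∑ z ∈ S, dv w F (k + 1) (f z) ^ 2 = w⁻¹ * ∑ z ∈ S, F (k + 1) (f z) ^ 2 := by
      rw [mul_sum]
      refine sum_congr rfl fun z _ => ?_
      unfold dv
      rw [mul_pow, h1]
    rw [h2, one_mul]
    have h3 : (0 : ℝ) < 2 ^ k := by positivity
    have h4 := mul_le_mul_of_nonneg_left hf (inv_pos.2 hw).le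
    refine h4.trans ?_
    have h5 : w⁻¹ * (e * 2 ^ k) = (w⁻¹ * e) * 2 ^ k := by ring
    rw [h5]
    have h6 : w⁻¹ * e ≤ 1 := by
      have h7 := mul_le_mul_of_nonneg_left he (inv_pos.2 hw).le
      rwa [inv_mul_cancel₀ hw.ne'] at h7
    exact mul_le_of_le_one_left h3.le h6
  exact ⟨fun k hk hkn m hQ y hy => by unfold dv; rw [h.agree k hk hkn m hQ y hy], h.pack,
    fun k hk m x y => key k _ _ (h.l0 k hk m x y), fun k hk m z y => key k _ _ (h.l1 k hk m z y),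
    fun k hk m z x => key k _ _ (h.l2 k hk m z x)⟩

theorem ES_dv {n : ℕ} {e cP w : ℝ} {F : ℕ → Pt → ℝ} (h : ES n e cP F) (hw : 0 < w) (he : e ≤ w) :
    ES n 1 cP (dv w F) := by
  obtain ⟨_, Q, hQ⟩ := h
  exact ⟨zero_le_one, Q, BSl_dv hQ hw he⟩

variable {ι : Type} [Fintype ι] [DecidableEq ι]

/-- the family `C` is linear in the input -/
theorem mC_dv (q : H401.Num) (U : Tri) (K : ℕ) (v : ℤ → ℤ → ι → ℝ) (F2 : ℕ → Pt → ℝ) {w : ℝ}
    (hw : 0 < w) :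
    mC q U K v F2 = fun x0 k z x => √w • mC q U K v (dv w F2) x0 k z x := by
  have h0 : √w ≠ 0 := (Real.sqrt_pos.2 hw).ne'
  funext x0 k z x
  unfold H401.mC H677.fC H677.kF dv
  split_ifs
  · rw [zero_smul, smul_zero]
  · rw [smul_smul, ← mul_assoc, mul_inv_cancel₀ h0, one_mul]

/-! ### Statements with stops -/

/-- **It is enough to treat `ez = 1`.** -/
theorem PartQ.of_one {Φ : StQ}
    (hs : ∀ (ι : Type) [Fintype ι] [DecidableEq ι] (p : H401.Num) (n : ℕ) (ez : ℝ)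
      (F1 F2 F3 : ℕ → Pt → ℝ) (o : ℤ) (K : ℕ) (x : Pt) (s r : ℝ) (U : Tri) (g : ℤ → ℤ → ℝ)
      (u v : ℤ → ℤ → ι → ℝ) (Q1 Q2 Q3 : ℕ → Pt → Prop) (B w : ℝ), 0 < w →
      Φ ι p n 1 F1 (dv w F2) F3 o K x s r U g u v Q1 Q2 Q3 B →
      Φ ι p n ez F1 F2 F3 o K x s r U g u v Q1 Q2 Q3 (√w * B))
    (hc : ∀ (ι : Type) [Fintype ι] [DecidableEq ι] (p : H401.Num) (n : ℕ) (ez : ℝ)
      (F1 F2 F3 : ℕ → Pt → ℝ) (o : ℤ) (K : ℕ) (x : Pt) (s r : ℝ) (U : Tri) (g : ℤ → ℤ → ℝ)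
      (u v : ℤ → ℤ → ι → ℝ) (Q1 Q2 Q3 : ℕ → Pt → Prop) (B : ℝ),
      (∀ δ > 0, ∃ B' ≤ B + δ, Φ ι p n ez F1 F2 F3 o K x s r U g u v Q1 Q2 Q3 B') →
      Φ ι p n ez F1 F2 F3 o K x s r U g u v Q1 Q2 Q3 B)
    (H : PartQ fun ι _ _ p n ez F1 F2 F3 o K x s r U g u v Q1 Q2 Q3 B =>
      ez = 1 → Φ ι p n ez F1 F2 F3 o K x s r U g u v Q1 Q2 Q3 B) : PartQ Φ := by
  unfold PartQ at H ⊢
  intro a ha ha1
  obtain ⟨es, hes, H⟩ := H a ha ha1
  refine ⟨es, hes, fun e0 he0 he0' => ?_⟩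
  obtain ⟨k8s, hk8s, H⟩ := H e0 he0 he0'
  refine ⟨k8s, hk8s, fun k8 hk8 hk8' => ?_⟩
  obtain ⟨k3s, hk3s, H⟩ := H k8 hk8 hk8'
  refine ⟨k3s, hk3s, fun k3 hk3 hk3' => ?_⟩
  obtain ⟨gam, c1, d0, del, hgam, hc1, hd0, hdel, H⟩ := H k3 hk3 hk3'
  refine ⟨gam, c1, d0, del, hgam, hc1, hd0, hdel, fun c hc' hcc d hd hdd Kt e cP L hK he hcP hL => ?_⟩
  obtain ⟨CD, hCD, C, hC, H⟩ := H c hc' hcc d hd hdd Kt e cP L hK he hcP hL
  refine ⟨CD, hCD, C, hC, ?_⟩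
  intro t ht ht1 n ez F1 F2 F3 f1 f3 f2 o ho K hKn x ι _ _ s r U g u v hs0 hr hcls Q1 Q2 Q3 q1 q2 q3
  have hez : 0 ≤ ez := f2.1
  set M : ℝ := C * (t ^ (1 + gam) * s ^ (5 / 4 : ℝ) * √1 * 8 ^ K) * r ^ (-del) with hM
  have hM0 : 0 ≤ M := price_nonneg ht hs0 hr hC gam del K
  have key : ∀ w : ℝ, 0 < w → ez ≤ w → Φ ι ⟨a, e0, k8, k3, c, d, Kt, e, cP, L, CD, t⟩ n ez F1 F2 F3
      o K x s r U g u v Q1 Q2 Q3 (√w * M) := by
    intro w hw hzw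
    refine hs ι _ n ez F1 F2 F3 o K x s r U g u v Q1 Q2 Q3 M w hw ?_
    exact H t ht ht1 n 1 F1 (dv w F2) F3 f1 f3 (ES_dv f2 hw hzw) o ho K hKn x ι s r U g u v hs0 hr
      hcls Q1 Q2 Q3 q1 (BSl_dv q2 hw hzw) q3 rfl
  rcases hez.eq_or_lt with h0 | h0
  · refine hc ι _ n ez F1 F2 F3 o K x s r U g u v Q1 Q2 Q3 _ fun δ hδ => ?_
    have hw : 0 < (δ / (M + 1)) ^ 2 := by positivity
    refine ⟨√((δ / (M + 1)) ^ 2) * M, ?_, key _ hw (by rw [← h0]; exact hw.le)⟩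
    rw [Real.sqrt_sq (by positivity), ← h0, Real.sqrt_zero]
    have h2 : δ / (M + 1) * M ≤ δ := by
      rw [div_mul_eq_mul_div, div_le_iff₀ (by positivity)]
      nlinarith
    have h3 : C * (t ^ (1 + gam) * s ^ (5 / 4 : ℝ) * 0 * 8 ^ K) * r ^ (-del) = 0 := by ring
    linarith
  · have h1 := key ez h0 le_rfl
    have h2 : √ez * M = C * (t ^ (1 + gam) * s ^ (5 / 4 : ℝ) * √ez * 8 ^ K) * r ^ (-del) := by
      rw [hM, Real.sqrt_one]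
      ring
    rwa [h2] at h1

/-! ### Homogeneous functionals -/

/-- homogeneous in `C` -/
def Hom (T : FunF) : Prop :=
  ∀ (ι : Type) [Fintype ι] [DecidableEq ι] (l : ℝ) (o : ℤ) (Al : ℕ → Pt → Prop) (K : ℕ)
    (x : Pt) (u : ℤ → ℤ → ι → ℝ) (A : ℤ → ℕ → ℤ → ℤ → ℝ) (b C : ℤ → ℕ → ℤ → ℤ → ι → ℝ)
    (sg : ℕ → Pt → ℝ) (a : ℝ), 0 ≤ a →
    T ι l o Al K x u A b (fun x0 k z w => a • C x0 k z w) sg ≤ a * T ι l o Al K x u A b C sg

theorem NS_mul (o : ℤ) (Al : ℕ → Pt → Prop) (K : ℕ) (x : Pt) (a : ℝ) (f : ℤ → ℕ → Pt → ℝ) :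
    NS o Al K x (fun x0 k m => a * f x0 k m) = a * NS o Al K x f := by
  unfold NS
  simp only [mul_sum]

theorem nf3_smulC (a : ℝ) (A : ℤ → ℤ → ℝ) (b C : ℤ → ℤ → ι → ℝ) (k : ℕ) (m : Pt) :
    nf3 A b (fun z x => a • C z x) k m = a * nf3 A b C k m := by
  unfold nf3
  rw [mul_left_comm a]
  congr 1
  rw [mul_sum]
  refine sum_congr rfl fun z _ => ?_
  rw [mul_sum]
  refine sum_congr rfl fun x _ => ?_
  rw [mul_sum]
  refine sum_congr rfl fun y _ => ?_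
  rw [dotProduct_smul, smul_eq_mul]
  ring

theorem ndZ_smulC (l : ℝ) (Kq : ℤ → ℕ → ℤ → Matrix ι ι ℝ) (a : ℝ) (A : ℤ → ℤ → ℝ)
    (b C : ℤ → ℤ → ι → ℝ) (k : ℕ) (m : Pt) :
    ndZ l Kq A b (fun z x => a • C z x) k m = a * ndZ l Kq A b C k m := by
  unfold ndZ
  rw [mul_sum]
  refine sum_congr rfl fun z _ => ?_
  rw [mul_sum]
  refine sum_congr rfl fun x _ => ?_
  rw [dotProduct_smul, smul_eq_mul]
  ring

theorem ndI_smulC (l : ℝ) (Kq : ℤ → ℕ → ℤ → Matrix ι ι ℝ) (a : ℝ) (A : ℤ → ℤ → ℝ)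
    (b C : ℤ → ℤ → ι → ℝ) (k : ℕ) (m : Pt) :
    ndI l Kq A b (fun z x => a • C z x) k m = a * ndI l Kq A b C k m := by
  unfold ndI
  rw [mul_sum]
  refine sum_congr rfl fun z _ => ?_
  rw [mul_sum]
  refine sum_congr rfl fun x _ => ?_
  have h : a • C z x - ST l (Kq x) (a • C z x) k m.2.1 =
      a • (C z x - ST l (Kq x) (C z x) k m.2.1) := by
    unfold H677.ST
    rw [mulVec_smul, smul_comm, smul_sub]
  rw [h, smul_dotProduct, smul_eq_mul]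
  ring

theorem hom_NI : Hom NI := by
  intro ι _ _ l o Al K x u A b C sg a ha
  unfold NI
  rw [← NS_mul]
  refine le_of_eq ?_
  congr 1
  funext x0 k m
  rw [ndI_smulC, abs_mul, abs_of_nonneg ha]

theorem hom_NZ : Hom NZ := by
  intro ι _ _ l o Al K x u A b C sg a ha
  unfold NZ
  rw [← NS_mul]
  refine le_of_eq ?_
  congr 1
  funext x0 k m
  rw [ndZ_smulC, abs_mul, abs_of_nonneg ha]

theorem GA_smulC (a : ℝ) (A : ℕ → ℤ → ℤ → ℝ) (b C : ℕ → ℤ → ℤ → ι → ℝ)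
    (R : ℕ → ℤ → ℤ → Matrix ι ι ℝ) (i j : ℕ) (y : Pt) :
    GA A b (fun k z w => a • C k z w) R i j y = a * GA A b C R i j y := by
  unfold GA
  rw [mulVec_smul, dotProduct_smul, smul_eq_mul]
  ring

theorem In_mul (N : ℕ) (M : Pt) (κ F : Pt → ℝ) (a : ℝ) :
    In N M κ (fun y => a * F y) = a * In N M κ F := by
  unfold H352.In
  rw [mul_sum]
  exact sum_congr rfl fun x _ => by ring

theorem hom_NF : Hom NF := by
  intro ι _ _ l o Al K x u A b C sg a ha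
  unfold NF
  simp only [GA_smulC, ← mul_sub, In_mul, ← mul_sum]
  rw [abs_mul, abs_of_nonneg ha]

/-! ### Prices from the case `ez = 1` -/

/-- the price of a functional of the cut families, `ez = 1` -/
def CSt1 (T : FunF) : Prop :=
  PartQ fun ι _ _ p _n ez F1 F2 F3 o K x s r U g u v Q1 _Q2 Q3 B => ez = 1 →
    ∀ sg : ℕ → Pt → ℝ, (∀ k m, |sg k m| ≤ 1) →
      T ι (p.lam s r) o (p.al U K) K x u (cA p s r U K g F1 Q1) (cb p s r U K u F3 Q3)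
        (mC p U K v F2) sg ≤ B

theorem le_of_near {X B : ℝ} (h : ∀ δ > 0, ∃ B' ≤ B + δ, X ≤ B') : X ≤ B := by
  refine le_of_forall_pos_le_add fun δ hδ => ?_
  obtain ⟨B', h1, h2⟩ := h δ hδ
  exact h2.trans h1

theorem CSt.of_one {T : FunF} (hT : Hom T) (H : CSt1 T) : CSt T := by
  unfold CSt
  refine PartQ.of_one ?_ ?_ H
  · intro ι _ _ p n ez F1 F2 F3 o K x s r U g u v Q1 Q2 Q3 B w hw h sg hsg
    rw [mC_dv p U K v F2 hw]
    exact (hT ι _ o _ K x u _ _ _ sg (√w) (Real.sqrt_nonneg w)).trans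
      (mul_le_mul_of_nonneg_left (h sg hsg) (Real.sqrt_nonneg w))
  · intro ι _ _ p n ez F1 F2 F3 o K x s r U g u v Q1 Q2 Q3 B h sg hsg
    exact le_of_near fun δ hδ => by
      obtain ⟨B', h1, h2⟩ := h δ hδ
      exact ⟨B', h1, h2 sg hsg⟩

/-- the bundle with `ez = 1` -/
def One (D : Bun) : Bun := fun ι _ _ p n ez F1 F2 F3 o K x s r U g u v A b C =>
  ez = 1 ∧ D ι p n ez F1 F2 F3 o K x s r U g u v A b C

/-- the makers for `ez = 1` -/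
def MkSt1 (D : Bun) : Prop :=
  PartQ fun ι _ _ p n ez F1 F2 F3 o K x s r U g u v Q1 _Q2 Q3 _B => ez = 1 →
    D ι p n ez F1 F2 F3 o K x s r U g u v (cA p s r U K g F1 Q1) (cb p s r U K u F3 Q3)
      (mC p U K v F2)

/-- **maker and part, `ez = 1`** -/
theorem CSt1.of_mk {D : Bun} {T : FunF} (H1 : MkSt1 D) (H2 : PartF (One D) T) : CSt1 T := by
  unfold MkSt1 PartQ at H1
  unfold PartF at H2
  unfold CSt1 PartQ
  refine PartY.addX H1 H2 ?_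
  intro ι _ _ p n ez F1 F2 F3 o K x s r U g u v B1 B2 B _ _ _ _ z1 _ k1 k2 k3 Q1 Q2 Q3 q1 q2 q3
    hez sg hsg
  exact (k2 _ _ _ ⟨hez, k1 Q1 Q2 Q3 q1 q2 q3 hez⟩ sg hsg).trans (by linarith)

theorem MkSt.one {D : Bun} (H : MkSt D) : MkSt1 D := by
  unfold MkSt PartQ at H
  unfold MkSt1 PartQ
  intro a ha ha1
  obtain ⟨es, hes, H⟩ := H a ha ha1
  refine ⟨es, hes, fun e0 he0 he0' => ?_⟩
  obtain ⟨k8s, hk8s, H⟩ := H e0 he0 he0'
  refine ⟨k8s, hk8s, fun k8 hk8 hk8' => ?_⟩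
  obtain ⟨k3s, hk3s, H⟩ := H k8 hk8 hk8'
  refine ⟨k3s, hk3s, fun k3 hk3 hk3' => ?_⟩
  obtain ⟨gam, c1, d0, del, hgam, hc1, hd0, hdel, H⟩ := H k3 hk3 hk3'
  refine ⟨gam, c1, d0, del, hgam, hc1, hd0, hdel, fun c hc' hcc d hd hdd Kt e cP L hK he hcP hL => ?_⟩
  obtain ⟨CD, hCD, C, hC, H⟩ := H c hc' hcc d hd hdd Kt e cP L hK he hcP hL
  refine ⟨CD, hCD, C, hC, ?_⟩
  intro t ht ht1 n ez F1 F2 F3 f1 f3 f2 o ho K hKn x ι _ _ s r U g u v hs0 hr hcls Q1 Q2 Q3 q1 q2 q3 _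
  exact H t ht ht1 n ez F1 F2 F3 f1 f3 f2 o ho K hKn x ι s r U g u v hs0 hr hcls Q1 Q2 Q3 q1 q2 q3

/-- **maker (any `ez`) and part (`ez = 1`)** -/
theorem CSt.of_mk_one {D : Bun} {T : FunF} (hT : Hom T) (H1 : MkSt D) (H2 : PartF (One D) T) :
    CSt T :=
  CSt.of_one hT (CSt1.of_mk (MkSt.one H1) H2)

/-! ### The unsplit parts -/

/-- `HSt1` with `ez = 1` -/
def HSt1o : Prop :=
  PartQ fun _ _ _ p _n ez F1 F2 F3 o K x s r U g u v Q1 _Q2 _Q3 B => ez = 1 →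
    NS o (p.al U K) K x (fun x0 k m =>
      |nf3 (hA p s r U K g F1 Q1 x0 k) (mb p U K u F3 x0 k) (mC p U K v F2 x0 k) k m|) ≤ B

/-- `HSt2` with `ez = 1` -/
def HSt2o : Prop :=
  PartQ fun _ _ _ p _n ez F1 F2 F3 o K x s r U g u v Q1 _Q2 Q3 B => ez = 1 →
    NS o (p.al U K) K x (fun x0 k m =>
      |nf3 (cA p s r U K g F1 Q1 x0 k) (hb1 p s r U K u F3 Q3 x0 k) (mC p U K v F2 x0 k) k m|) ≤ B

/-- `HSt3` with `ez = 1` -/
def HSt3o : Prop :=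
  PartQ fun _ _ _ p _n ez F1 F2 F3 o K x s r U g u v Q1 _Q2 Q3 B => ez = 1 →
    NS o (p.al U K) K x (fun x0 k m =>
      |nf3 (cA p s r U K g F1 Q1 x0 k) (hb3 p s r U K u F3 Q3 x0 k) (mC p U K v F2 x0 k) k m|) ≤ B

theorem NS_abs_smulC (o : ℤ) (Al : ℕ → Pt → Prop) (K : ℕ) (x : Pt) {a : ℝ} (ha : 0 ≤ a)
    (A : ℤ → ℕ → ℤ → ℤ → ℝ) (b C : ℤ → ℕ → ℤ → ℤ → ι → ℝ) :
    NS o Al K x (fun x0 k m => |nf3 (A x0 k) (b x0 k) (fun z w => a • C x0 k z w) k m|) =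
      a * NS o Al K x (fun x0 k m => |nf3 (A x0 k) (b x0 k) (C x0 k) k m|) := by
  rw [← NS_mul]
  congr 1
  funext x0 k m
  rw [nf3_smulC, abs_mul, abs_of_nonneg ha]

theorem HSt1.of_one (H : HSt1o) : HSt1 := by
  unfold HSt1
  refine PartQ.of_one ?_ ?_ H
  · intro ι _ _ p n ez F1 F2 F3 o K x s r U g u v Q1 Q2 Q3 B w hw h
    rw [mC_dv p U K v F2 hw]
    beta_reduce
    rw [NS_abs_smulC o _ K x (Real.sqrt_nonneg w)]
    exact mul_le_mul_of_nonneg_left h (Real.sqrt_nonneg w)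
  · intro ι _ _ p n ez F1 F2 F3 o K x s r U g u v Q1 Q2 Q3 B h
    exact le_of_near h

theorem HSt2.of_one (H : HSt2o) : HSt2 := by
  unfold HSt2
  refine PartQ.of_one ?_ ?_ H
  · intro ι _ _ p n ez F1 F2 F3 o K x s r U g u v Q1 Q2 Q3 B w hw h
    rw [mC_dv p U K v F2 hw]
    beta_reduce
    rw [NS_abs_smulC o _ K x (Real.sqrt_nonneg w)]
    exact mul_le_mul_of_nonneg_left h (Real.sqrt_nonneg w)
  · intro ι _ _ p n ez F1 F2 F3 o K x s r U g u v Q1 Q2 Q3 B h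
    exact le_of_near h

theorem HSt3.of_one (H : HSt3o) : HSt3 := by
  unfold HSt3
  refine PartQ.of_one ?_ ?_ H
  · intro ι _ _ p n ez F1 F2 F3 o K x s r U g u v Q1 Q2 Q3 B w hw h
    rw [mC_dv p U K v F2 hw]
    beta_reduce
    rw [NS_abs_smulC o _ K x (Real.sqrt_nonneg w)]
    exact mul_le_mul_of_nonneg_left h (Real.sqrt_nonneg w)
  · intro ι _ _ p n ez F1 F2 F3 o K x s r U g u v Q1 Q2 Q3 B h
    exact le_of_near h

/-- **The class statement**, prices of the functionals only for `ez = 1`. -/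
theorem ce1q_of_one {DI DZ DF : Bun} (H1 : HSt1) (H2 : HSt2) (H3 : HSt3) (MI : MkSt DI)
    (MZ : MkSt DZ) (MF : MkSt DF) (HI : PartF (One DI) NI) (HZ : PartF (One DZ) NZ)
    (HF : PartF (One DF) NTFf) : CE1q := by
  have h : PartF (One DF) NF := HF.le 1 zero_le_one fun ι _ _ l o _ Al K x u A b C sg => by
    rw [one_mul]
    exact NF_le_TFf l o Al K x u A b C sg
  exact ce1q_of_cst (HSt.of_three H1 H2 H3) (CSt.of_mk_one hom_NI MI HI)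
    (CSt.of_mk_one hom_NZ MZ HZ) (CSt.of_mk_one hom_NF MF h)

end

end Vale.Agent.P141.H163
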