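import Vale.Agent.P141.H163.EzOne
import Vale.Agent.P141.H401.CutV

/-!
# P141, line (A), top: `ez = 1`, with the cut of `v`

* `HSt0.of_one`, `CStV.of_one`, `CStV.of_mk_one` : the case `ez = 1` is enough;
* `ce1q_of_oneV` : the class statement with the cut of `v`, prices of the functionals only for
  `ez = 1`.
-/

namespace Vale.Agent.P141.H163

open Finset Matrix
open Vale.Agent.P141.PL (Pt iv hs ix cx)
open Vale.Agent.P141.PL.H315 (Tri)
open Vale.Agent.P141.H48 (US ES BSl)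
open Vale.Agent.P141.H677
open Vale.Agent.P141.H305 (ClsM kapM CE1q)
open Vale.Agent.P141.H401

noncomputable section

open scoped Classical

set_option linter.unusedSectionVars false

/-- `HSt0` with `ez = 1` -/
def HSt0o (Dv : Sel) : Prop :=
  PartQ fun ι _ _ p _n ez F1 F2 F3 o K x s r U g u v _Q1 _Q2 _Q3 B => ez = 1 →
    NS o (p.al U K) K x (fun x0 k m =>
      |nf3 (mA p U K g F1 x0 k) (mb p U K u F3 x0 k)
        (mC p U K (hi (Dv ι p K x s r U v) v) F2 x0 k) k m|) ≤ B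

theorem HSt0.of_one {Dv : Sel} (H : HSt0o Dv) : HSt0 Dv := by
  unfold HSt0
  refine PartQ.of_one ?_ ?_ H
  · intro ι _ _ p n ez F1 F2 F3 o K x s r U g u v Q1 Q2 Q3 B w hw h
    rw [mC_dv p U K (hi (Dv ι p K x s r U v) v) F2 hw]
    beta_reduce
    rw [NS_abs_smulC o _ K x (Real.sqrt_nonneg w)]
    exact mul_le_mul_of_nonneg_left h (Real.sqrt_nonneg w)
  · intro ι _ _ p n ez F1 F2 F3 o K x s r U g u v Q1 Q2 Q3 B h
    exact le_of_near h

/-- the price of a functional of the cut families of the data with `lo`, `ez = 1` -/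
def CStV1 (Dv : Sel) (T : FunF) : Prop :=
  PartQ fun ι _ _ p _n ez F1 F2 F3 o K x s r U g u v Q1 _Q2 Q3 B => ez = 1 →
    ∀ sg : ℕ → Pt → ℝ, (∀ k m, |sg k m| ≤ 1) →
      T ι (p.lam s r) o (p.al U K) K x u (cA p s r U K g F1 Q1) (cb p s r U K u F3 Q3)
        (mC p U K (lo (Dv ι p K x s r U v) v) F2) sg ≤ B

theorem CStV.of_one {Dv : Sel} {T : FunF} (hT : Hom T) (H : CStV1 Dv T) : CStV Dv T := by
  unfold CStV
  refine PartQ.of_one ?_ ?_ H
  · intro ι _ _ p n ez F1 F2 F3 o K x s r U g u v Q1 Q2 Q3 B w hw h sg hsg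
    rw [mC_dv p U K (lo (Dv ι p K x s r U v) v) F2 hw]
    exact (hT ι _ o _ K x u _ _ _ sg (√w) (Real.sqrt_nonneg w)).trans
      (mul_le_mul_of_nonneg_left (h sg hsg) (Real.sqrt_nonneg w))
  · intro ι _ _ p n ez F1 F2 F3 o K x s r U g u v Q1 Q2 Q3 B h sg hsg
    exact le_of_near fun δ hδ => by
      obtain ⟨B', h1, h2⟩ := h δ hδ
      exact ⟨B', h1, h2 sg hsg⟩

/-- **maker (any `ez`) and part (`ez = 1`), data with `lo`** -/
theorem CStV.of_mk_one {Dv : Sel} {D : Bun} {T : FunF} (hT : Hom T) (H1 : MkStV Dv D)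
    (H2 : PartF (One D) T) : CStV Dv T := by
  refine CStV.of_one hT ?_
  unfold MkStV PartQ at H1
  unfold PartF at H2
  unfold CStV1 PartQ
  have H3 := PartX.subst Dv H2
  refine PartY.addX H1 H3 ?_
  intro ι _ _ p n ez F1 F2 F3 o K x s r U g u v B1 B2 B _ _ _ _ z1 _ k1 k2 k3 Q1 Q2 Q3 q1 q2 q3
    hez sg hsg
  exact (k2 _ _ _ ⟨hez, k1 Q1 Q2 Q3 q1 q2 q3⟩ sg hsg).trans (by linarith)

/-- **The class statement from the leaves, with the cut of `v`**, prices of the functionals only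
for `ez = 1`. -/
theorem ce1q_of_oneV (Dv : Sel)
    (hDv : ∀ (ι : Type) [Fintype ι] [DecidableEq ι] (p : H401.Num) (CD : ℝ) (K : ℕ) (x : Pt)
      (s r : ℝ) (U : Tri) (v : ℤ → ℤ → ι → ℝ),
      Dv ι { p with CD := CD } K x s r U v = Dv ι p K x s r U v)
    {DI DZ DF : Bun} (H0 : HSt0 Dv) (H1 : HSt1) (H2 : HSt2) (H3 : HSt3) (MI : MkStV Dv DI)
    (MZ : MkStV Dv DZ) (MF : MkStV Dv DF) (HI : PartF (One DI) NI) (HZ : PartF (One DZ) NZ)
    (HF : PartF (One DF) NTFf) : CE1q := by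
  have h : PartF (One DF) NF := HF.le 1 zero_le_one fun ι _ _ l o _ Al K x u A b C sg => by
    rw [one_mul]
    exact NF_le_TFf l o Al K x u A b C sg
  exact ce1q_of_cstV Dv hDv H0 ((HSt.of_three H1 H2 H3).toV Dv) (CStV.of_mk_one hom_NI MI HI)
    (CStV.of_mk_one hom_NZ MZ HZ) (CStV.of_mk_one hom_NF MF h)

end

end Vale.Agent.P141.H163
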