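import Vale.Agent.P141.H163.EzOneV
import Vale.Agent.P141.H408.SkelTI2
import Vale.Agent.P141.H652.RedF

/-!
# P141, line (A), TI: the leaves with `ez = 1` and the family `mC`

`PairQ.of_one`, and for every leaf of `H408.SkelTI2` the same leaf with `ez = 1`, third family `mC`:
`LCap.of_one`, `LAB.of_one`, `LCA.of_one`, `LBC.of_one`, `LCA1.of_one`, `LBC1.of_one`.
`hom_NT` : the increasing part with the slot `Th` is homogeneous in `C`.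
-/

namespace Vale.Agent.P141.H163

open Finset Matrix
open Vale.Agent.P141.PL (Pt iv hs ix cx)
open Vale.Agent.P141.PL.H315 (Tri)
open Vale.Agent.P141.H48 (US ES BSl)
open Vale.Agent.P141.H677
open Vale.Agent.P141.H305 (ClsM kapM)
open Vale.Agent.P141.H401
open Vale.Agent.P141.H408

noncomputable section

open scoped Classical

set_option linter.unusedSectionVars false

section fam

variable {ι : Type} [Fintype ι] [DecidableEq ι]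

theorem C1_one (q : H401.Num) (U : Tri) (K : ℕ) (v : ℤ → ℤ → ι → ℝ) (F2 : ℕ → Pt → ℝ) :
    C1 q 1 U K v F2 = mC q U K v F2 := by
  funext x0 k z x
  unfold C1
  rw [Real.sqrt_one, inv_one, one_smul]

theorem C1_dv (q : H401.Num) (U : Tri) (K : ℕ) (v : ℤ → ℤ → ι → ℝ) (F2 : ℕ → Pt → ℝ) {w : ℝ}
    (hw : 0 < w) : C1 q w U K v F2 = mC q U K v (dv w F2) := by
  have h0 : √w ≠ 0 := (Real.sqrt_pos.2 hw).ne'
  funext x0 k z x
  unfold C1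
  rw [mC_dv q U K v F2 hw]
  beta_reduce
  rw [smul_smul, inv_mul_cancel₀ h0, one_smul]

theorem ndT_smulC (l : ℝ) (N : ℕ) (S : ℤ) (Kq : ℤ → ℕ → ℤ → Matrix ι ι ℝ) (c x0 : ℤ) (a : ℝ)
    (A : ℤ → ℤ → ℝ) (b C : ℤ → ℤ → ι → ℝ) (k : ℕ) (m : Pt) :
    H652.ndT l N S Kq c x0 A b (fun z x => a • C z x) k m = a * H652.ndT l N S Kq c x0 A b C k m := by
  unfold H652.ndT
  rw [mul_sum]
  refine sum_congr rfl fun z _ => ?_
  rw [mul_sum]
  refine sum_congr rfl fun x _ => ?_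
  rw [mulVec_smul, smul_dotProduct, smul_eq_mul]
  ring

end fam

theorem hom_NT : Hom H652.NT := by
  intro ι _ _ l o Al K x u A b C sg a ha
  unfold H652.NT
  rw [← NS_mul]
  refine le_of_eq ?_
  congr 1
  funext x0 k m
  rw [ndT_smulC, abs_mul, abs_of_nonneg ha]

/-- **It is enough to treat `ez = 1`.** -/
theorem PairQ.of_one {Ψ Φ : StQ}
    (hΦ : ∀ (ι : Type) [Fintype ι] [DecidableEq ι] (p : H401.Num) (n : ℕ) (ez : ℝ)
      (F1 F2 F3 : ℕ → Pt → ℝ) (o : ℤ) (K : ℕ) (x : Pt) (s r : ℝ) (U : Tri) (g : ℤ → ℤ → ℝ)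
      (u v : ℤ → ℤ → ι → ℝ) (Q1 Q2 Q3 : ℕ → Pt → Prop) (X : ℝ), 0 < ez →
      Ψ ι p n 1 F1 (dv ez F2) F3 o K x s r U g u v Q1 Q2 Q3 X →
      Φ ι p n ez F1 F2 F3 o K x s r U g u v Q1 Q2 Q3 X)
    (H : PairQ fun ι _ _ p n ez F1 F2 F3 o K x s r U g u v Q1 Q2 Q3 X =>
      ez = 1 → Ψ ι p n ez F1 F2 F3 o K x s r U g u v Q1 Q2 Q3 X) : PairQ Φ := by
  intro a ha ha1
  obtain ⟨es, hes, H⟩ := H a ha ha1
  refine ⟨es, hes, fun e0 he0 he0' => ?_⟩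
  obtain ⟨k8s, hk8s, H⟩ := H e0 he0 he0'
  refine ⟨k8s, hk8s, fun k8 hk8 hk8' => ?_⟩
  obtain ⟨k3s, hk3s, H⟩ := H k8 hk8 hk8'
  refine ⟨k3s, hk3s, fun k3 hk3 hk3' δ hδ => ?_⟩
  obtain ⟨c1, d0, hc1, hd0, H⟩ := H k3 hk3 hk3' δ hδ
  refine ⟨c1, d0, hc1, hd0, fun c hc hcc d hd hdd Kt e cP L hK he hcP hL => ?_⟩
  obtain ⟨C, hC, H⟩ := H c hc hcc d hd hdd Kt e cP L hK he hcP hL
  refine ⟨C, hC, ?_⟩
  intro t ht ht1 n ez F1 F2 F3 f1 f3 f2 o ho K hKn x ι _ _ s r U g u v hs hr hcls Q1 Q2 Q3 q1 q2 q3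
    hez
  refine hΦ ι _ n ez F1 F2 F3 o K x s r U g u v Q1 Q2 Q3 _ hez ?_
  exact H t ht ht1 n 1 F1 (dv ez F2) F3 f1 f3 (ES_dv f2 hez le_rfl) o ho K hKn x ι s r U g u v hs
    hr hcls Q1 Q2 Q3 q1 (BSl_dv q2 hez le_rfl) q3 one_pos rfl

/-! ### The leaves -/

/-- `LCap` with `ez = 1` -/
def LCapo : Prop := PairQ fun _ _ _ p _ ez F1 F2 F3 o K x s r U g u v Q1 _ Q3 _ => ez = 1 →
  Caps (p.al U K) o K (cx K x) (beI p r) (p.lam s r) u (cA p s r U K g F1 Q1)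
    (cb p s r U K u F3 Q3) (mC p U K v F2) (tauI p s r) (tauI p s r) (cCI p s r)

/-- `LAB` with `ez = 1` -/
def LABo : Prop := PairQ fun ι _ _ p _ ez F1 F2 F3 o K x s r U g u v Q1 _ Q3 X => ez = 1 →
  ∀ h, 0 < h → h ≤ tauI p s r →
    PABf (beI p r) h ι (p.al U K) o K (cx K x) (fun _ _ => 0) (p.lam s r) u
      (cA p s r U K g F1 Q1) (cb p s r U K u F3 Q3) (mC p U K v F2) ≤ X * (s * 8 ^ K) * h ^ 2

/-- `LCA` with `ez = 1` -/
def LCAo : Prop := PairQ fun ι _ _ p _ ez F1 F2 F3 o K x s r U g u v Q1 _ Q3 X => ez = 1 →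
  ∀ y, gI p s r ≤ y → y ≤ cCI p s r →
    PCAf (beI p r) y (tauI p s r) ι (p.al U K) o K (cx K x) (fun _ _ => 0) (p.lam s r) u
      (cA p s r U K g F1 Q1) (cb p s r U K u F3 Q3) (mC p U K v F2) ≤
    X * (s * 8 ^ K) * ((p.t / r) ^ (p.e0 / 4) * (tauI p s r * y))

/-- `LBC` with `ez = 1` -/
def LBCo : Prop := PairQ fun ι _ _ p _ ez F1 F2 F3 o K x s r U g u v Q1 _ Q3 X => ez = 1 →
  ∀ y, gI p s r ≤ y → y ≤ cCI p s r →
    PBCf (beI p r) (tauI p s r) y ι (p.al U K) o K (cx K x) (fun _ _ => 0) (p.lam s r) u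
      (cA p s r U K g F1 Q1) (cb p s r U K u F3 Q3) (mC p U K v F2) ≤
    X * (s * 8 ^ K) * (tauI p s r * y)

/-- `LCA1` with `ez = 1` -/
def LCA1o : Prop := PairQ fun ι _ _ p _ ez F1 F2 F3 o K x s r U g u v Q1 _ Q3 X => ez = 1 →
  ∀ y σ, 0 < σ → σ ≤ y →
    PCAf (beI p r) y σ ι (p.al U K) o K (cx K x) (fun _ _ => 0) (p.lam s r) u
      (cA p s r U K g F1 Q1) (cb p s r U K u F3 Q3) (mC p U K v F2) ≤ X * (s * 8 ^ K) * y ^ 2

/-- `LBC1` with `ez = 1` -/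
def LBC1o : Prop := PairQ fun ι _ _ p _ ez F1 F2 F3 o K x s r U g u v Q1 _ Q3 X => ez = 1 →
  ∀ h, 0 < h → h ≤ tauI p s r →
    PBCf (beI p r) h h ι (p.al U K) o K (cx K x) (fun _ _ => 0) (p.lam s r) u
      (cA p s r U K g F1 Q1) (cb p s r U K u F3 Q3) (mC p U K v F2) ≤
    X * (s * 8 ^ K) * ((p.t / r) ^ (-2 : ℝ) * (h ^ 2 * (tauI p s r / h) ^ (1 / 4 : ℝ)))

theorem LCap.of_one (H : LCapo) : LCap := by
  refine PairQ.of_one ?_ H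
  intro ι _ _ p n ez F1 F2 F3 o K x s r U g u v Q1 Q2 Q3 X hez h
  rw [C1_dv p U K v F2 hez]
  exact h

theorem LAB.of_one (H : LABo) : LAB := by
  refine PairQ.of_one ?_ H
  intro ι _ _ p n ez F1 F2 F3 o K x s r U g u v Q1 Q2 Q3 X hez h
  rw [C1_dv p U K v F2 hez]
  exact h

theorem LCA.of_one (H : LCAo) : LCA := by
  refine PairQ.of_one ?_ H
  intro ι _ _ p n ez F1 F2 F3 o K x s r U g u v Q1 Q2 Q3 X hez h
  rw [C1_dv p U K v F2 hez]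
  exact h

theorem LBC.of_one (H : LBCo) : LBC := by
  refine PairQ.of_one ?_ H
  intro ι _ _ p n ez F1 F2 F3 o K x s r U g u v Q1 Q2 Q3 X hez h
  rw [C1_dv p U K v F2 hez]
  exact h

theorem LCA1.of_one (H : LCA1o) : LCA1 := by
  refine PairQ.of_one ?_ H
  intro ι _ _ p n ez F1 F2 F3 o K x s r U g u v Q1 Q2 Q3 X hez h
  rw [C1_dv p U K v F2 hez]
  exact h

theorem LBC1.of_one (H : LBC1o) : LBC1 := by
  refine PairQ.of_one ?_ H
  intro ι _ _ p n ez F1 F2 F3 o K x s r U g u v Q1 Q2 Q3 X hez h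
  rw [C1_dv p U K v F2 hez]
  exact h

end

end Vale.Agent.P141.H163
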