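import Vale.Agent.P141.H163.EzOneV
import Vale.Agent.P141.H677.SkelTF2

/-!
# P141, line (A): the flow functionals are homogeneous in `C`

`hom_fN`, `hom_fB`, `hom_fS`, `hom_fM`: so that the prices of the near term, the births, the shift
error and the node forms are needed for `ez = 1` only (`CSt.of_mk_one`, `CStV.of_mk_one`).
-/

namespace Vale.Agent.P141.H163

open Finset Matrix
open Vale.Agent.P141.PL (Pt iv hs ix cx cb)
open Vale.Agent.P141.PL.H560 (cbs)
open Vale.Agent.P141.H352 (In p)
open Vale.Agent.P141.H795 (kp TS E8)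
open Vale.Agent.P141.H677
open Vale.Agent.P141.H677.Sk
open Vale.Agent.P141.H401

noncomputable section

open scoped Classical

set_option linter.unusedSectionVars false

theorem TS_mul (N : ℕ) (M : Pt) (c : ℤ) (k : ℕ) (s : Pt) {a : ℝ} (ha : 0 ≤ a) (F : Pt → ℝ) :
    TS N M c k s (fun y => a * F y) = a * TS N M c k s F := by
  have h : ∀ m : Pt, H795.nd k m (H795.tr N M s fun y => a * F y) =
      a * H795.nd k m (H795.tr N M s F) := by
    intro m
    unfold H795.nd
    rw [mul_left_comm a]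
    congr 1
    rw [mul_sum]
    refine sum_congr rfl fun x _ => ?_
    unfold H795.tr
    split_ifs
    · ring
    · simp
  unfold H795.TS
  simp only [h, abs_mul, abs_of_nonneg ha, ← mul_sum]

theorem hom_fN : Hom fN := by
  intro ι _ _ l o Al K x u A b C sg a ha
  unfold Sk.fN Sk.qN
  simp only [GA_smulC, ← mul_sub, In_mul, abs_mul, abs_of_nonneg ha, ← mul_sum]
  exact le_rfl

theorem hom_f0 : Hom f0 := by
  intro ι _ _ l o Al K x u A b C sg a ha
  unfold Sk.f0 Sk.q0
  have h : ∀ x0 : ℤ, GA (A x0) (b x0) (fun k z w => a • C x0 k z w)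
      (sl Al o K (cx K x) sg l u x0) 0 0 =
      fun y => a * GA (A x0) (b x0) (C x0) (sl Al o K (cx K x) sg l u x0) 0 0 y := fun x0 => by
    funext y
    exact GA_smulC ..
  simp only [h, In_mul, abs_mul, abs_of_nonneg ha, ← mul_sum]
  exact le_rfl

theorem hom_fB : Hom fB := by
  intro ι _ _ l o Al K x u A b C sg a ha
  unfold Sk.fB Sk.qB
  simp only [GA_smulC, ← mul_sub, In_mul, abs_mul, abs_of_nonneg ha, ← mul_sum]
  exact le_rfl

theorem hom_fS : Hom fS := by
  intro ι _ _ l o Al K x u A b C sg a ha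
  unfold Sk.fS Sk.qS
  simp only [GA_smulC, ← mul_sub, TS_mul _ _ _ _ _ ha, ← mul_sum]
  rw [mul_left_comm a]

theorem hom_fM : Hom fM := by
  intro ι _ _ l o Al K x u A b C sg a ha
  unfold Sk.fM Sk.qM
  have h : ∀ (s : Pt) (x0 : ℤ) (k : ℕ), GA (A x0) (b x0) (fun k z w => a • C x0 k z w)
      (av (sl Al o K (cx K x) sg l u) s.2.2 x0) (k + 1) (k + 1) =
      fun y => a * GA (A x0) (b x0) (C x0) (av (sl Al o K (cx K x) sg l u) s.2.2 x0)
        (k + 1) (k + 1) y := fun s x0 k => by
    funext y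
    exact GA_smulC ..
  simp only [h, TS_mul _ _ _ _ _ ha, ← mul_sum]
  rw [mul_left_comm a]

end

end Vale.Agent.P141.H163
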